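import Crest.Agent.R195.Rules
import Crest.Agent.R195.Data0
import Crest.Agent.R195.Data1
import Crest.Agent.R195.Data2
import Crest.Agent.R195.Data3
import Crest.Agent.R195.Data4
import Crest.Agent.R195.Data5
import Crest.Agent.R195.Data6
import Crest.Agent.R195.Data7
import Crest.Agent.R195.Data8
import Crest.Agent.R195.Data9
import Crest.Agent.R195.Data10
import Crest.Agent.R195.Data11
import Crest.Agent.R195.Data12
import Crest.Agent.R195.Data13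
import Crest.Agent.R195.Data14
import Crest.Agent.R195.Data15

/-! Row 195: finite data (generated). -/

set_option autoImplicit false
set_option maxRecDepth 100000
set_option Elab.async false

namespace Crest.Agent.R195

theorem F_2 : Full [2, 1] :=
  full_crit [] (by simp) 2 [] full_nil 0x10010410c3 (by decide +kernel)

theorem F_3 : Full [3, 1, 1] :=
  full_bb [[1]] (List.forall_mem_cons.2 ⟨full_one, (by simp)⟩) _ [0x1002086042] [[0, 2, 4]] 4 (by decide +kernel) (by omega)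
    fun x hx => of_scan B_3_0 x (by omega) (by omega)

theorem F_3_1 : Full [3, 2, 1] :=
  full_crit [[1]] (List.forall_mem_cons.2 ⟨full_one, (by simp)⟩) 3 [1] full_one 0x1046041042103 (by decide +kernel)

theorem F_4 : Full [4, 1, 1, 1] :=
  full_bb [[1], [3, 1, 1]] (List.forall_mem_cons.2 ⟨full_one, (List.forall_mem_cons.2 ⟨F_3, (by simp)⟩)⟩) _ [0x1003086042] [[0, 2, 4, 6]] 6 (by decide +kernel) (by omega)
    fun x hx => of_scan B_4_0 x (by omega) (by omega)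

theorem F_4_1 : Full [4, 2, 1, 1] :=
  full_bb [] (by simp) _ [0x40082181086042] [[0, 3, 6, 7]] 6 (by decide +kernel) (by omega)
    fun x hx => of_scan B_4_1_0 x (by omega) (by omega)

theorem F_4_2 : Full [4, 3, 2, 1] :=
  full_crit [] (by simp) 4 [2, 1] F_2 0x10010410c3042082103 (by decide +kernel)

theorem F_4_2_1 : Full [4, 3, 3, 1] :=
  full_bb [[1]] (List.forall_mem_cons.2 ⟨full_one, (by simp)⟩) _ [0x41183105042] [[0, 3, 6, 9]] 9 (by decide +kernel) (by omega)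
    fun x hx => of_scan B_4_2_1_0 x (by omega) (by omega)

theorem F_5_2 : Full [5, 3, 2, 1, 1] :=
  full_bb [] (by simp) _ [0x1002086041042103042] [[0, 6, 9, 10, 11]] 7 (by decide +kernel) (by omega)
    fun x hx => of_scan B_5_2_0 x (by omega) (by omega)

theorem F_4_3_1 : Full [4, 4, 3, 2] :=
  full_bb [[3, 2, 1]] (List.forall_mem_cons.2 ⟨F_3_1, (by simp)⟩) _ [0x10010410840c4145] [[0, 5, 8, 10, 12]] 9 (by decide +kernel) (by omega)
    fun x hx => of_scan B_4_3_1_0 x (by omega) (by omega)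

theorem F_5_3 : Full [5, 4, 2, 2, 1] :=
  full_crit [] (by simp) 5 [3, 1, 1] F_3 0x40041042103206082083103 (by decide +kernel)

theorem F_5_3_1 : Full [5, 4, 3, 2, 1] :=
  full_crit [[1]] (List.forall_mem_cons.2 ⟨full_one, (by simp)⟩) 5 [3, 2, 1] F_3_1 0x1046041042103082083103 (by decide +kernel)

theorem F_6_3 : Full [6, 4, 2, 2, 1, 1] :=
  full_bb [[1], [3, 1, 1]] (List.forall_mem_cons.2 ⟨full_one, (List.forall_mem_cons.2 ⟨F_3, (by simp)⟩)⟩) _ [0x1047207, 0x40082182086042042] [[0, 7, 9, 11, 13, 15], [0, 4, 8, 11, 14, 15]] 10 (by decide +kernel) (by omega)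
    fun x hx => of_scan B_6_3_0 x (by omega) (by omega)

theorem F_6_3_1 : Full [6, 4, 3, 2, 1, 1] :=
  full_bb [[3, 2, 1]] (List.forall_mem_cons.2 ⟨F_3_1, (by simp)⟩) _ [0x400821810410840c30c3104044, 0x1047207] [[0, 7, 12, 16], [0, 8, 10, 12, 14, 16]] 10 (by decide +kernel) (by omega)
    fun x hx => of_scan B_6_3_1_0 x (by omega) (by omega)

theorem F_6_4 : Full [6, 5, 2, 2, 2, 1] :=
  full_crit [] (by simp) 6 [4, 1, 1, 1] F_4 0x400420821032060830c3103 (by decide +kernel)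

theorem F_6_4_1 : Full [6, 5, 3, 2, 2, 1] :=
  full_crit [[1]] (List.forall_mem_cons.2 ⟨full_one, (by simp)⟩) 6 [4, 2, 1, 1] F_4_1 0x411820c50420830c3103 (by decide +kernel)

theorem F_7_4 : Full [7, 5, 2, 2, 2, 1, 1] :=
  full_bb [[1], [4, 1, 1, 1], [6, 5, 2, 2, 2, 1]] (List.forall_mem_cons.2 ⟨full_one, (List.forall_mem_cons.2 ⟨F_4, (List.forall_mem_cons.2 ⟨F_6_4, (by simp)⟩)⟩)⟩) _ [0x1047207, 0x40042042206042042] [[0, 9, 11, 13, 15, 17, 19], [0, 4, 8, 12, 15, 18, 19]] 12 (by decide +kernel) (by omega)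
    fun x hx => of_scan B_7_4_0 x (by omega) (by omega)

theorem F_6_4_2 : Full [6, 5, 4, 3, 2, 1] :=
  full_crit [] (by simp) 6 [4, 3, 2, 1] F_4_2 0x10010410c30420821030830c3103 (by decide +kernel)

theorem F_6_4_2_1 : Full [6, 5, 4, 4, 2, 1] :=
  full_crit [[2, 1]] (List.forall_mem_cons.2 ⟨F_2, (by simp)⟩) 6 [4, 3, 3, 1] F_4_2_1 0x411841450830c3103 (by decide +kernel)

theorem F_7_4_2 : Full [7, 5, 4, 3, 2, 1, 1] :=
  full_crit [] (by simp) 7 [4, 3, 2, 1] F_4_2 0x400821810810820840c3104104044 (by decide +kernel)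

theorem F_7_4_2_1 : Full [7, 5, 4, 4, 2, 1, 1] :=
  full_bb [[1], [4, 3, 3, 1]] (List.forall_mem_cons.2 ⟨full_one, (List.forall_mem_cons.2 ⟨F_4_2_1, (by simp)⟩)⟩) _ [0x1047207, 0x41181088184145042042] [[0, 13, 15, 17, 19, 21, 23], [0, 5, 10, 15, 19, 22, 23]] 12 (by decide +kernel) (by omega)
    fun x hx => of_scan B_7_4_2_1_0 x (by omega) (by omega)

theorem F_7_5_2 : Full [7, 6, 4, 3, 2, 2, 1] :=
  full_crit [[1]] (List.forall_mem_cons.2 ⟨full_one, (by simp)⟩) 7 [5, 3, 2, 1, 1] F_5_2 0x411820c50420821030c30c4103 (by decide +kernel)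

theorem F_7_5_2_1 : Full [7, 6, 4, 4, 2, 2, 1] :=
  full_bb [[6, 5, 4, 4, 2, 1]] (List.forall_mem_cons.2 ⟨F_6_4_2_1, (by simp)⟩) _ [0x10010410840c81841450c30c4103] [[0, 9, 16, 22, 25]] 18 (by decide +kernel) (by omega)
    fun x hx => of_scan B_7_5_2_1_0 x (by omega) (by omega)

theorem F_7_5_3 : Full [7, 6, 5, 3, 3, 2, 1] :=
  full_crit [] (by simp) 7 [5, 4, 2, 2, 1] F_5_3 0x400410430c31050420c30c4103 (by decide +kernel)

theorem F_7_5_3_1 : Full [7, 6, 5, 4, 3, 2, 1] :=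
  full_crit [[1]] (List.forall_mem_cons.2 ⟨full_one, (by simp)⟩) 7 [5, 4, 3, 2, 1] F_5_3_1 0x10460410421030820831030c30c4103 (by decide +kernel)

theorem F_8_5_3 : Full [8, 6, 5, 3, 3, 2, 1, 1] :=
  full_bb [[3, 1, 1], [5, 4, 2, 2, 1]] (List.forall_mem_cons.2 ⟨F_3, (List.forall_mem_cons.2 ⟨F_5_3, (by simp)⟩)⟩) _ [0x10010410840c8181083104104044207, 0x1047207, 0x10471c81c7, 0x10020860420820830c3103042] [[0, 8, 14, 20, 25, 26, 27, 28], [0, 16, 18, 20, 22, 24, 26, 28], [0, 9, 13, 17, 21, 24, 27, 28], [0, 8, 16, 21, 23, 25, 27, 28]] 14 (by decide +kernel) (by omega)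
    fun x hx => if h9348 : x < 9348 then of_scan B_8_5_3_0 x (by omega) (by omega) else
      of_scan B_8_5_3_1 x (by omega) (by omega)

theorem F_8_5_3_1 : Full [8, 6, 5, 4, 3, 2, 1, 1] :=
  full_crit [] (by simp) 8 [5, 4, 3, 2, 1] F_5_3_1 0x400821810410840c20820c40c4104144044 (by decide +kernel)

theorem F_8_6_3 : Full [8, 7, 5, 3, 3, 2, 2, 1] :=
  full_bb [[1], [6, 4, 2, 2, 1, 1]] (List.forall_mem_cons.2 ⟨full_one, (List.forall_mem_cons.2 ⟨F_6_3, (by simp)⟩)⟩) _ [0x411820831050420c4104103, 0x1047207] [[0, 8, 16, 24, 30], [0, 18, 20, 22, 24, 26, 28, 30]] 14 (by decide +kernel) (by omega)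
    fun x hx => of_scan B_8_6_3_0 x (by omega) (by omega)

theorem F_8_6_3_1 : Full [8, 7, 5, 4, 3, 2, 2, 1] :=
  full_crit [[1]] (List.forall_mem_cons.2 ⟨full_one, (by simp)⟩) 8 [6, 4, 3, 2, 1, 1] F_6_3_1 0x411820c50420820831030c4104103 (by decide +kernel)

theorem F_9_6_3 : Full [9, 7, 5, 3, 3, 2, 2, 1, 1] :=
  full_bb [[3, 1, 1], [6, 4, 2, 2, 1, 1]] (List.forall_mem_cons.2 ⟨F_3, (List.forall_mem_cons.2 ⟨F_6_3, (by simp)⟩)⟩) _ [0x1047207, 0x1002086082082042042042, 0x10471c81c7] [[0, 18, 20, 22, 24, 26, 28, 30, 32], [0, 6, 12, 17, 22, 26, 29, 31, 32], [0, 9, 13, 17, 21, 25, 28, 31, 32]] 16 (by decide +kernel) (by omega)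
    fun x hx => if h8322 : x < 8322 then of_scan B_9_6_3_0 x (by omega) (by omega) else
      if h8354 : x < 8354 then of_scan B_9_6_3_1 x (by omega) (by omega) else
      if h8385 : x < 8385 then of_scan B_9_6_3_2 x (by omega) (by omega) else
      if h9376 : x < 9376 then of_scan B_9_6_3_3 x (by omega) (by omega) else
      if h9409 : x < 9409 then of_scan B_9_6_3_4 x (by omega) (by omega) else
      if h10401 : x < 10401 then of_scan B_9_6_3_5 x (by omega) (by omega) else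
      if h11396 : x < 11396 then of_scan B_9_6_3_6 x (by omega) (by omega) else
      of_scan B_9_6_3_7 x (by omega) (by omega)

theorem F_8_6_4_1 : Full [8, 7, 6, 4, 3, 3, 2, 1] :=
  full_crit [[1]] (List.forall_mem_cons.2 ⟨full_one, (by simp)⟩) 8 [6, 5, 3, 2, 2, 1] F_6_4_1 0x411810820830c31040440c4104103 (by decide +kernel)

theorem F_9_6_4 : Full [9, 7, 6, 3, 3, 3, 2, 1, 1] :=
  full_bb [[4, 1, 1, 1], [6, 5, 2, 2, 2, 1]] (List.forall_mem_cons.2 ⟨F_4, (List.forall_mem_cons.2 ⟨F_6_4, (by simp)⟩)⟩) _ [0x10010820840c1088181084145144044, 0x1047207, 0x400420821030422060c30c4103042, 0x10471c81c7] [[0, 8, 16, 22, 28, 33], [0, 20, 22, 24, 26, 28, 30, 32, 34], [0, 10, 19, 25, 28, 30, 32, 33, 34], [0, 11, 15, 19, 23, 27, 30, 33, 34]] 16 (by decide +kernel) (by omega)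
    fun x hx => of_scan B_9_6_4_0 x (by omega) (by omega)

theorem F_8_6_4_2 : Full [8, 7, 6, 5, 4, 3, 2, 1] :=
  full_crit [] (by simp) 8 [6, 5, 4, 3, 2, 1] F_6_4_2 0x10010410c30420821030830c31030c4104103 (by decide +kernel)

theorem F_8_6_4_2_1 : Full [8, 7, 6, 5, 5, 3, 2, 1] :=
  full_crit [[1]] (List.forall_mem_cons.2 ⟨full_one, (by simp)⟩) 8 [6, 5, 4, 4, 2, 1] F_6_4_2_1 0x411810410840c51850420c4104103 (by decide +kernel)

theorem F_9_6_4_2 : Full [9, 7, 6, 5, 4, 3, 2, 1, 1] :=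
  full_crit [] (by simp) 9 [6, 5, 4, 3, 2, 1] F_6_4_2 0x400821810810820840c20c30c40c4145144044 (by decide +kernel)

theorem F_9_6_4_2_1 : Full [9, 7, 6, 5, 5, 3, 2, 1, 1] :=
  full_bb [[4, 3, 3, 1], [6, 5, 4, 4, 2, 1]] (List.forall_mem_cons.2 ⟨F_4_2_1, (List.forall_mem_cons.2 ⟨F_6_4_2_1, (by simp)⟩)⟩) _ [0x1002086041042103146141084145144044, 0x1047207, 0x400821810410840c51850c30c4103042, 0x10471c81c7] [[0, 9, 17, 24, 31, 37], [0, 24, 26, 28, 30, 32, 34, 36, 38], [0, 11, 20, 27, 31, 34, 36, 37, 38], [0, 15, 19, 23, 27, 31, 34, 37, 38]] 16 (by decide +kernel) (by omega)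
    fun x hx => of_scan B_9_6_4_2_1_0 x (by omega) (by omega)

theorem F_9_7_4_2 : Full [9, 8, 6, 5, 4, 3, 2, 2, 1] :=
  full_crit [[1]] (List.forall_mem_cons.2 ⟨full_one, (by simp)⟩) 9 [7, 5, 4, 3, 2, 1, 1] F_7_4_2 0x411820c50420821030830c3103104105103 (by decide +kernel)

theorem F_9_7_4_2_1 : Full [9, 8, 6, 5, 5, 3, 2, 2, 1] :=
  full_bb [[1], [7, 5, 4, 4, 2, 1, 1]] (List.forall_mem_cons.2 ⟨full_one, (List.forall_mem_cons.2 ⟨F_7_4_2_1, (by simp)⟩)⟩) _ [0x1047207, 0x41182081085185042104105103] [[0, 26, 28, 30, 32, 34, 36, 38, 40], [0, 9, 18, 27, 35, 39]] 16 (by decide +kernel) (by omega)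
    fun x hx => of_scan B_9_7_4_2_1_0 x (by omega) (by omega)

theorem F_9_7_5_2 : Full [9, 8, 7, 5, 4, 3, 3, 2, 1] :=
  full_crit [[1]] (List.forall_mem_cons.2 ⟨full_one, (by simp)⟩) 9 [7, 6, 4, 3, 2, 2, 1] F_7_5_2 0x41181082081083104104044104105103 (by decide +kernel)

theorem F_9_7_5_2_1 : Full [9, 8, 7, 5, 5, 3, 3, 2, 1] :=
  full_crit [] (by simp) 9 [7, 6, 4, 4, 2, 2, 1] F_7_5_2_1 0x10010410c30c4145185042104105103 (by decide +kernel)

theorem F_9_7_5_3 : Full [9, 8, 7, 6, 4, 4, 3, 2, 1] :=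
  full_crit [[1]] (List.forall_mem_cons.2 ⟨full_one, (by simp)⟩) 9 [7, 6, 5, 3, 3, 2, 1] F_7_5_3 0x411810410840c41450c30c4103104105103 (by decide +kernel)

theorem F_9_7_5_3_1 : Full [9, 8, 7, 6, 5, 4, 3, 2, 1] :=
  full_crit [[1]] (List.forall_mem_cons.2 ⟨full_one, (by simp)⟩) 9 [7, 6, 5, 4, 3, 2, 1] F_7_5_3_1 0x10460410421030820831030c30c4103104105103 (by decide +kernel)

theorem F_10_7_5_3 : Full [10, 8, 7, 6, 4, 4, 3, 2, 1, 1] :=
  full_crit [] (by simp) 10 [7, 6, 5, 3, 3, 2, 1] F_7_5_3 0x10020860410421031051430c31040c5145184004 (by decide +kernel)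

theorem F_10_7_5_3_1 : Full [10, 8, 7, 6, 5, 4, 3, 2, 1, 1] :=
  full_crit [] (by simp) 10 [7, 6, 5, 4, 3, 2, 1] F_7_5_3_1 0x400821810410840c20820c40c30c31040c5145184004 (by decide +kernel)

theorem F_10_8_5_3 : Full [10, 9, 7, 6, 4, 4, 3, 2, 2, 1] :=
  full_crit [[1]] (List.forall_mem_cons.2 ⟨full_one, (by simp)⟩) 10 [8, 6, 5, 3, 3, 2, 1, 1] F_8_5_3 0x411820810841450c30c4103105145103 (by decide +kernel)

theorem F_10_8_5_3_1 : Full [10, 9, 7, 6, 5, 4, 3, 2, 2, 1] :=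
  full_crit [[1]] (List.forall_mem_cons.2 ⟨full_one, (by simp)⟩) 10 [8, 6, 5, 4, 3, 2, 1, 1] F_8_5_3_1 0x411820c50420820831030c30c4103105145103 (by decide +kernel)

theorem F_10_8_6_3 : Full [10, 9, 8, 6, 4, 4, 3, 3, 2, 1] :=
  full_crit [] (by simp) 10 [8, 7, 5, 3, 3, 2, 2, 1] F_8_6_3 0x10010410c30c4144145042042105145103 (by decide +kernel)

theorem F_10_8_6_3_1 : Full [10, 9, 8, 6, 5, 4, 3, 3, 2, 1] :=
  full_crit [] (by simp) 10 [8, 7, 5, 4, 3, 2, 2, 1] F_8_6_3_1 0x10010410c30c41420820c40c4104144044105145103 (by decide +kernel)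

theorem F_11_8_6_3 : Full [11, 9, 8, 6, 4, 4, 3, 3, 2, 1, 1] :=
  full_bb [[1], [3, 1, 1], [6, 4, 2, 2, 1, 1], [8, 7, 5, 3, 3, 2, 2, 1]] (List.forall_mem_cons.2 ⟨full_one, (List.forall_mem_cons.2 ⟨F_3, (List.forall_mem_cons.2 ⟨F_6_3, (List.forall_mem_cons.2 ⟨F_8_6_3, (by simp)⟩)⟩)⟩)⟩) _ [0x1047207, 0x1002086042082082042104105103042, 0x10460820c4141081085145184004207, 0x10471c81c7, 0x10471c72071c7, 0x10020860821810830c31040c10881c7] [[0, 33, 35, 37, 39, 41, 43, 45, 47, 49, 51], [0, 10, 20, 28, 36, 41, 45, 47, 49, 50, 51], [0, 9, 18, 27, 36, 43, 46, 48, 49, 50, 51], [0, 20, 24, 28, 32, 36, 40, 44, 47, 50, 51], [0, 11, 17, 23, 29, 35, 40, 44, 48, 50, 51], [0, 10, 20, 29, 35, 38, 41, 44, 47, 50, 51]] 20 (by decide +kernel) (by omega)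
    fun x hx => if h9408 : x < 9408 then of_scan B_11_8_6_3_0 x (by omega) (by omega) else
      if h9410 : x < 9410 then of_scan B_11_8_6_3_1 x (by omega) (by omega) else
      if h9440 : x < 9440 then of_scan B_11_8_6_3_2 x (by omega) (by omega) else
      if h9441 : x < 9441 then (of_split 9 6 0 (by omega) (by omega) x (by omega) fun v hv =>
          if g9 : v < 9 then of_scanY B_11_8_6_3_3y0 v (by omega) (by omega) else
          of_scanY B_11_8_6_3_3y1 v (by omega) (by omega)) else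
      if h9442 : x < 9442 then (of_split 9 6 1 (by omega) (by omega) x (by omega) fun v hv =>
          if g9 : v < 9 then of_scanY B_11_8_6_3_4y0 v (by omega) (by omega) else
          of_scanY B_11_8_6_3_4y1 v (by omega) (by omega)) else
      if h9472 : x < 9472 then of_scan B_11_8_6_3_5 x (by omega) (by omega) else
      if h9473 : x < 9473 then (of_split 9 7 0 (by omega) (by omega) x (by omega) fun v hv =>
          if g8 : v < 8 then of_scanY B_11_8_6_3_6y0 v (by omega) (by omega) else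
          if g9 : v < 9 then of_scanY B_11_8_6_3_6y1 v (by omega) (by omega) else
          of_scanY B_11_8_6_3_6y2 v (by omega) (by omega)) else
      if h10404 : x < 10404 then of_scan B_11_8_6_3_7 x (by omega) (by omega) else
      if h10432 : x < 10432 then of_scan B_11_8_6_3_8 x (by omega) (by omega) else
      if h10433 : x < 10433 then (of_split 10 5 0 (by omega) (by omega) x (by omega) fun v hv =>
          if g10 : v < 10 then of_scanY B_11_8_6_3_9y0 v (by omega) (by omega) else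
          of_scanY B_11_8_6_3_9y1 v (by omega) (by omega)) else
      if h10434 : x < 10434 then (of_split 10 5 1 (by omega) (by omega) x (by omega) fun v hv =>
          if g10 : v < 10 then of_scanY B_11_8_6_3_10y0 v (by omega) (by omega) else
          of_scanY B_11_8_6_3_10y1 v (by omega) (by omega)) else
      if h10435 : x < 10435 then (of_split 10 5 2 (by omega) (by omega) x (by omega) fun v hv =>
          if g10 : v < 10 then of_scanY B_11_8_6_3_11y0 v (by omega) (by omega) else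
          of_scanY B_11_8_6_3_11y1 v (by omega) (by omega)) else
      if h10436 : x < 10436 then (of_split 10 5 3 (by omega) (by omega) x (by omega) fun v hv =>
          if g10 : v < 10 then of_scanY B_11_8_6_3_12y0 v (by omega) (by omega) else
          of_scanY B_11_8_6_3_12y1 v (by omega) (by omega)) else
      if h10464 : x < 10464 then of_scan B_11_8_6_3_13 x (by omega) (by omega) else
      if h10465 : x < 10465 then (of_split 10 6 0 (by omega) (by omega) x (by omega) fun v hv =>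
          if g9 : v < 9 then of_scanY B_11_8_6_3_14y0 v (by omega) (by omega) else
          if g10 : v < 10 then of_scanY B_11_8_6_3_14y1 v (by omega) (by omega) else
          of_scanY B_11_8_6_3_14y2 v (by omega) (by omega)) else
      if h10466 : x < 10466 then (of_split 10 6 1 (by omega) (by omega) x (by omega) fun v hv =>
          if g9 : v < 9 then of_scanY B_11_8_6_3_15y0 v (by omega) (by omega) else
          if g10 : v < 10 then of_scanY B_11_8_6_3_15y1 v (by omega) (by omega) else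
          of_scanY B_11_8_6_3_15y2 v (by omega) (by omega)) else
      if h10467 : x < 10467 then (of_split 10 6 2 (by omega) (by omega) x (by omega) fun v hv =>
          if g9 : v < 9 then of_scanY B_11_8_6_3_16y0 v (by omega) (by omega) else
          if g10 : v < 10 then of_scanY B_11_8_6_3_16y1 v (by omega) (by omega) else
          of_scanY B_11_8_6_3_16y2 v (by omega) (by omega)) else
      if h10496 : x < 10496 then of_scan B_11_8_6_3_17 x (by omega) (by omega) else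
      if h10497 : x < 10497 then (of_split 10 7 0 (by omega) (by omega) x (by omega) fun v hv =>
          if g8 : v < 8 then of_scanY B_11_8_6_3_18y0 v (by omega) (by omega) else
          if g9 : v < 9 then of_scanY B_11_8_6_3_18y1 v (by omega) (by omega) else
          if g10 : v < 10 then of_scanY B_11_8_6_3_18y2 v (by omega) (by omega) else
          of_scanY B_11_8_6_3_18y3 v (by omega) (by omega)) else
      if h10498 : x < 10498 then (of_split 10 7 1 (by omega) (by omega) x (by omega) fun v hv =>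
          if g8 : v < 8 then of_scanY B_11_8_6_3_19y0 v (by omega) (by omega) else
          if g9 : v < 9 then of_scanY B_11_8_6_3_19y1 v (by omega) (by omega) else
          if g10 : v < 10 then of_scanY B_11_8_6_3_19y2 v (by omega) (by omega) else
          of_scanY B_11_8_6_3_19y3 v (by omega) (by omega)) else
      if h10528 : x < 10528 then of_scan B_11_8_6_3_20 x (by omega) (by omega) else
      if h10529 : x < 10529 then (of_split 10 8 0 (by omega) (by omega) x (by omega) fun v hv =>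
          if g8 : v < 8 then of_scanY B_11_8_6_3_21y0 v (by omega) (by omega) else
          if g9 : v < 9 then of_scanY B_11_8_6_3_21y1 v (by omega) (by omega) else
          if g10 : v < 10 then of_scanY B_11_8_6_3_21y2 v (by omega) (by omega) else
          of_scanY B_11_8_6_3_21y3 v (by omega) (by omega)) else
      if h11490 : x < 11490 then of_scan B_11_8_6_3_22 x (by omega) (by omega) else
      if h11491 : x < 11491 then of_scan B_11_8_6_3_23 x (by omega) (by omega) else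
      if h11492 : x < 11492 then (of_split 11 6 3 (by omega) (by omega) x (by omega) fun v hv =>
          if g9 : v < 9 then of_scanY B_11_8_6_3_24y0 v (by omega) (by omega) else
          of_scanY B_11_8_6_3_24y1 v (by omega) (by omega)) else
      if h11522 : x < 11522 then of_scan B_11_8_6_3_25 x (by omega) (by omega) else
      if h11523 : x < 11523 then (of_split 11 7 2 (by omega) (by omega) x (by omega) fun v hv =>
          if g8 : v < 8 then of_scanY B_11_8_6_3_26y0 v (by omega) (by omega) else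
          if g9 : v < 9 then of_scanY B_11_8_6_3_26y1 v (by omega) (by omega) else
          of_scanY B_11_8_6_3_26y2 v (by omega) (by omega)) else
      if h11552 : x < 11552 then of_scan B_11_8_6_3_27 x (by omega) (by omega) else
      if h11553 : x < 11553 then (of_split 11 8 0 (by omega) (by omega) x (by omega) fun v hv =>
          if g8 : v < 8 then of_scanY B_11_8_6_3_28y0 v (by omega) (by omega) else
          of_scanY B_11_8_6_3_28y1 v (by omega) (by omega)) else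
      if h12515 : x < 12515 then of_scan B_11_8_6_3_29 x (by omega) (by omega) else
      if h12516 : x < 12516 then of_scan B_11_8_6_3_30 x (by omega) (by omega) else
      if h12545 : x < 12545 then of_scan B_11_8_6_3_31 x (by omega) (by omega) else
      if h12546 : x < 12546 then of_scan B_11_8_6_3_32 x (by omega) (by omega) else
      if h12547 : x < 12547 then (of_split 12 7 2 (by omega) (by omega) x (by omega) fun v hv =>
          if g8 : v < 8 then of_scanY B_11_8_6_3_33y0 v (by omega) (by omega) else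
          of_scanY B_11_8_6_3_33y1 v (by omega) (by omega)) else
      if h12576 : x < 12576 then of_scan B_11_8_6_3_34 x (by omega) (by omega) else
      if h12577 : x < 12577 then (of_split 12 8 0 (by omega) (by omega) x (by omega) fun v hv =>
          if g8 : v < 8 then of_scanY B_11_8_6_3_35y0 v (by omega) (by omega) else
          of_scanY B_11_8_6_3_35y1 v (by omega) (by omega)) else
      if h13540 : x < 13540 then of_scan B_11_8_6_3_36 x (by omega) (by omega) else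
      if h13570 : x < 13570 then of_scan B_11_8_6_3_37 x (by omega) (by omega) else
      if h13600 : x < 13600 then of_scan B_11_8_6_3_38 x (by omega) (by omega) else
      if h14594 : x < 14594 then of_scan B_11_8_6_3_39 x (by omega) (by omega) else
      of_scan B_11_8_6_3_40 x (by omega) (by omega)

theorem F_10_8_6_4_1 : Full [10, 9, 8, 7, 5, 4, 4, 3, 2, 1] :=
  full_crit [[1]] (List.forall_mem_cons.2 ⟨full_one, (by simp)⟩) 10 [8, 7, 6, 4, 3, 3, 2, 1] F_8_6_4_1 0x411810410840c41450420c4104103105145103 (by decide +kernel)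

theorem F_11_9_6_3 : Full [11, 10, 8, 6, 4, 4, 3, 3, 2, 2, 1] :=
  full_bb [[1], [9, 7, 5, 3, 3, 2, 2, 1, 1]] (List.forall_mem_cons.2 ⟨full_one, (List.forall_mem_cons.2 ⟨F_9_6_3, (by simp)⟩)⟩) _ [0x1047207, 0x41182082084145042042145146103] [[0, 35, 37, 39, 41, 43, 45, 47, 49, 51, 53], [0, 10, 20, 30, 40, 48, 52, 53]] 20 (by decide +kernel) (by omega)
    fun x hx => if h11491 : x < 11491 then of_scan B_11_9_6_3_0 x (by omega) (by omega) else
      if h11492 : x < 11492 then (of_split 11 6 3 (by omega) (by omega) x (by omega) fun v hv =>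
          if g9 : v < 9 then of_scanY B_11_9_6_3_1y0 v (by omega) (by omega) else
          of_scanY B_11_9_6_3_1y1 v (by omega) (by omega)) else
      if h11522 : x < 11522 then of_scan B_11_9_6_3_2 x (by omega) (by omega) else
      if h11523 : x < 11523 then (of_split 11 7 2 (by omega) (by omega) x (by omega) fun v hv =>
          if g8 : v < 8 then of_scanY B_11_9_6_3_3y0 v (by omega) (by omega) else
          if g9 : v < 9 then of_scanY B_11_9_6_3_3y1 v (by omega) (by omega) else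
          of_scanY B_11_9_6_3_3y2 v (by omega) (by omega)) else
      if h12515 : x < 12515 then of_scan B_11_9_6_3_4 x (by omega) (by omega) else
      if h12516 : x < 12516 then of_scan B_11_9_6_3_5 x (by omega) (by omega) else
      if h12546 : x < 12546 then of_scan B_11_9_6_3_6 x (by omega) (by omega) else
      if h12547 : x < 12547 then (of_split 12 7 2 (by omega) (by omega) x (by omega) fun v hv =>
          if g8 : v < 8 then of_scanY B_11_9_6_3_7y0 v (by omega) (by omega) else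
          of_scanY B_11_9_6_3_7y1 v (by omega) (by omega)) else
      if h13570 : x < 13570 then of_scan B_11_9_6_3_8 x (by omega) (by omega) else
      of_scan B_11_9_6_3_9 x (by omega) (by omega)

theorem F_10_8_6_4_2 : Full [10, 9, 8, 7, 6, 5, 4, 3, 2, 1] :=
  full_crit [] (by simp) 10 [8, 7, 6, 5, 4, 3, 2, 1] F_8_6_4_2 0x10010410c30420821030830c31030c4104103105145103 (by decide +kernel)

theorem F_10_8_6_4_2_1 : Full [10, 9, 8, 7, 6, 6, 4, 3, 2, 1] :=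
  full_crit [] (by simp) 10 [8, 7, 6, 5, 5, 3, 2, 1] F_8_6_4_2_1 0x400410430c10820840c61c50c4104103105145103 (by decide +kernel)

theorem F_11_8_6_4_2 : Full [11, 9, 8, 7, 6, 5, 4, 3, 2, 1, 1] :=
  full_crit [] (by simp) 11 [8, 7, 6, 5, 4, 3, 2, 1] F_8_6_4_2 0x400821810810820840c20c30c40c31041040c5186184004 (by decide +kernel)

theorem F_11_8_6_4_2_1 : Full [11, 9, 8, 7, 6, 6, 4, 3, 2, 1, 1] :=
  full_crit [] (by simp) 11 [8, 7, 6, 5, 5, 3, 2, 1] F_8_6_4_2_1 0x10020860420420821031871431041040c5186184004 (by decide +kernel)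

theorem F_11_9_6_4_2 : Full [11, 10, 8, 7, 6, 5, 4, 3, 2, 2, 1] :=
  full_crit [[1]] (List.forall_mem_cons.2 ⟨full_one, (by simp)⟩) 11 [9, 7, 6, 5, 4, 3, 2, 1, 1] F_9_6_4_2 0x411820c50420821030830c31030c4104103145146103 (by decide +kernel)

theorem F_11_9_6_4_2_1 : Full [11, 10, 8, 7, 6, 6, 4, 3, 2, 2, 1] :=
  full_crit [[1]] (List.forall_mem_cons.2 ⟨full_one, (by simp)⟩) 11 [9, 7, 6, 5, 5, 3, 2, 1, 1] F_9_6_4_2_1 0x10460831410820840c61c50c4104103145146103 (by decide +kernel)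

theorem F_11_9_7_4_2 : Full [11, 10, 9, 7, 6, 5, 4, 3, 3, 2, 1] :=
  full_crit [] (by simp) 11 [9, 8, 6, 5, 4, 3, 2, 2, 1] F_9_7_4_2 0x10010410c30c41410820c30c40c4145144044145146103 (by decide +kernel)

theorem F_11_9_7_4_2_1 : Full [11, 10, 9, 7, 6, 6, 4, 3, 3, 2, 1] :=
  full_bb [[1], [9, 8, 6, 5, 5, 3, 2, 2, 1]] (List.forall_mem_cons.2 ⟨full_one, (List.forall_mem_cons.2 ⟨F_9_7_4_2_1, (by simp)⟩)⟩) _ [0x1047207, 0x10010410c30c41410861c5042042145146103] [[0, 43, 45, 47, 49, 51, 53, 55, 57, 59, 61], [0, 12, 23, 34, 44, 52, 57, 60, 61]] 20 (by decide +kernel) (by omega)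
    fun x hx => of_scan B_11_9_7_4_2_1_0 x (by omega) (by omega)

theorem F_11_9_7_5_2 : Full [11, 10, 9, 8, 6, 5, 4, 4, 3, 2, 1] :=
  full_crit [[1]] (List.forall_mem_cons.2 ⟨full_one, (by simp)⟩) 11 [9, 8, 7, 5, 4, 3, 3, 2, 1] F_9_7_5_2 0x411810410840c41450830c3103104105103145146103 (by decide +kernel)

theorem F_11_9_7_5_2_1 : Full [11, 10, 9, 8, 6, 6, 4, 4, 3, 2, 1] :=
  full_crit [[1]] (List.forall_mem_cons.2 ⟨full_one, (by simp)⟩) 11 [9, 8, 7, 5, 5, 3, 3, 2, 1] F_9_7_5_2_1 0x10460410421031051461c5104105103145146103 (by decide +kernel)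

theorem F_11_9_7_5_3 : Full [11, 10, 9, 8, 7, 5, 5, 4, 3, 2, 1] :=
  full_crit [] (by simp) 11 [9, 8, 7, 6, 4, 4, 3, 2, 1] F_9_7_5_3 0x400410430c10820840c5185042104105103145146103 (by decide +kernel)

theorem F_11_9_7_5_3_1 : Full [11, 10, 9, 8, 7, 6, 5, 4, 3, 2, 1] :=
  full_crit [[1]] (List.forall_mem_cons.2 ⟨full_one, (by simp)⟩) 11 [9, 8, 7, 6, 5, 4, 3, 2, 1] F_9_7_5_3_1 0x10460410421030820831030c30c4103104105103145146103 (by decide +kernel)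

theorem F_12_9_7_5_3 : Full [12, 10, 9, 8, 7, 5, 5, 4, 3, 2, 1, 1] :=
  full_crit [] (by simp) 12 [9, 8, 7, 6, 4, 4, 3, 2, 1] F_9_7_5_3 0x10020860420410831031461410841041440c61861c4004 (by decide +kernel)

theorem F_12_9_7_5_3_1 : Full [12, 10, 9, 8, 7, 6, 5, 4, 3, 2, 1, 1] :=
  full_crit [] (by simp) 12 [9, 8, 7, 6, 5, 4, 3, 2, 1] F_9_7_5_3_1 0x400821810410840c20820c40c30c31040c41041440c61861c4004 (by decide +kernel)

theorem F_12_10_7_5_3 : Full [12, 11, 9, 8, 7, 5, 5, 4, 3, 2, 2, 1] :=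
  full_crit [[1]] (List.forall_mem_cons.2 ⟨full_one, (by simp)⟩) 12 [10, 8, 7, 6, 4, 4, 3, 2, 1, 1] F_10_7_5_3 0x10460831410820840c5185042104105103146186103 (by decide +kernel)

theorem F_12_10_7_5_3_1 : Full [12, 11, 9, 8, 7, 6, 5, 4, 3, 2, 2, 1] :=
  full_crit [[1]] (List.forall_mem_cons.2 ⟨full_one, (by simp)⟩) 12 [10, 8, 7, 6, 5, 4, 3, 2, 1, 1] F_10_7_5_3_1 0x411820c50420820831030c30c4103104105103146186103 (by decide +kernel)

theorem F_12_10_8_5_3 : Full [12, 11, 10, 8, 7, 5, 5, 4, 3, 3, 2, 1] :=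
  full_crit [] (by simp) 12 [10, 9, 7, 6, 4, 4, 3, 2, 2, 1] F_10_8_5_3 0x400410430c3105042146141085145184004146186103 (by decide +kernel)

theorem F_12_10_8_5_3_1 : Full [12, 11, 10, 8, 7, 6, 5, 4, 3, 3, 2, 1] :=
  full_crit [] (by simp) 12 [10, 9, 7, 6, 5, 4, 3, 2, 2, 1] F_10_8_5_3_1 0x10010410c30c41420820c40c30c31040c5145184004146186103 (by decide +kernel)

theorem F_12_10_8_6_3 : Full [12, 11, 10, 9, 7, 5, 5, 4, 4, 3, 2, 1] :=
  full_crit [[1]] (List.forall_mem_cons.2 ⟨full_one, (by simp)⟩) 12 [10, 9, 8, 6, 4, 4, 3, 3, 2, 1] F_10_8_6_3 0x1046041042103105145185042105145103146186103 (by decide +kernel)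

theorem F_12_10_8_6_3_1 : Full [12, 11, 10, 9, 7, 6, 5, 4, 4, 3, 2, 1] :=
  full_crit [[1]] (List.forall_mem_cons.2 ⟨full_one, (by simp)⟩) 12 [10, 9, 8, 6, 5, 4, 3, 3, 2, 1] F_10_8_6_3_1 0x411810410840c41450420c30c4103105145103146186103 (by decide +kernel)

theorem F_13_10_8_6_3 : Full [13, 11, 10, 9, 7, 5, 5, 4, 4, 3, 2, 1, 1] :=
  full_bb [[6, 4, 2, 2, 1, 1], [8, 7, 5, 3, 3, 2, 2, 1], [10, 9, 8, 6, 4, 4, 3, 3, 2, 1]] (List.forall_mem_cons.2 ⟨F_6_3, (List.forall_mem_cons.2 ⟨F_8_6_3, (List.forall_mem_cons.2 ⟨F_10_8_6_3, (by simp)⟩)⟩)⟩) _ [0x10020860410c30c41451461410841451440c61c71c4004, 0x1047207, 0x10471c72071c7, 0x400821810410840c41451461410831451840c61c71c4004, 0x10471c81c7] [[0, 14, 28, 41, 54, 65, 71], [0, 52, 54, 56, 58, 60, 62, 64, 66, 68, 70, 72, 74], [0, 22, 28, 34, 40, 46, 52, 58, 63, 67, 71, 73, 74], [0, 15, 29, 41, 53, 64, 71], [0, 35, 39, 43, 47, 51, 55, 59, 63, 67, 70, 73,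 74]] 24 (by decide +kernel) (by omega)
    fun x hx => of_scan B_13_10_8_6_3_0 x (by omega) (by omega)

theorem F_12_10_8_6_4_1 : Full [12, 11, 10, 9, 8, 6, 5, 5, 4, 3, 2, 1] :=
  full_crit [] (by simp) 12 [10, 9, 8, 7, 5, 4, 4, 3, 2, 1] F_10_8_6_4_1 0x10010410c3042082103146144104144044105145103146186103 (by decide +kernel)

theorem F_13_11_8_6_3 : Full [13, 12, 10, 9, 7, 5, 5, 4, 4, 3, 2, 2, 1] :=
  full_bb [[1], [11, 9, 8, 6, 4, 4, 3, 3, 2, 1, 1]] (List.forall_mem_cons.2 ⟨full_one, (List.forall_mem_cons.2 ⟨F_11_8_6_3, (by simp)⟩)⟩) _ [0x1047207, 0x41182081082085185042105145103186187103] [[0, 54, 56, 58, 60, 62, 64, 66, 68, 70, 72, 74, 76], [0, 14, 28, 42, 55, 66, 73, 76]] 24 (by decide +kernel) (by omega)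
    fun x hx => if h15622 : x < 15622 then of_scan B_13_11_8_6_3_0 x (by omega) (by omega) else
      if h15623 : x < 15623 then (of_split 15 7 6 (by omega) (by omega) x (by omega) fun v hv =>
          if g9 : v < 9 then of_scanY B_13_11_8_6_3_1y0 v (by omega) (by omega) else
          of_scanY B_13_11_8_6_3_1y1 v (by omega) (by omega)) else
      of_scan B_13_11_8_6_3_2 x (by omega) (by omega)

theorem F_12_10_8_6_4_2 : Full [12, 11, 10, 9, 8, 7, 6, 5, 4, 3, 2, 1] :=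
  full_crit [] (by simp) 12 [10, 9, 8, 7, 6, 5, 4, 3, 2, 1] F_10_8_6_4_2 0x10010410c30420821030830c31030c4104103105145103146186103 (by decide +kernel)

theorem F_13_10_8_6_4_2 : Full [13, 11, 10, 9, 8, 7, 6, 5, 4, 3, 2, 1, 1] :=
  full_crit [] (by simp) 13 [10, 9, 8, 7, 6, 5, 4, 3, 2, 1] F_10_8_6_4_2 0x400821810810820840c20c30c40c31041040c41451440c61c71c4004 (by decide +kernel)

theorem F_13_11_8_6_4_2 : Full [13, 12, 10, 9, 8, 7, 6, 5, 4, 3, 2, 2, 1] :=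
  full_crit [[1]] (List.forall_mem_cons.2 ⟨full_one, (by simp)⟩) 13 [11, 9, 8, 7, 6, 5, 4, 3, 2, 1, 1] F_11_8_6_4_2 0x411820c50420821030830c31030c4104103105145103186187103 (by decide +kernel)

theorem F_13_11_9_6_4_2 : Full [13, 12, 11, 9, 8, 7, 6, 5, 4, 3, 3, 2, 1] :=
  full_crit [] (by simp) 13 [11, 10, 8, 7, 6, 5, 4, 3, 2, 2, 1] F_11_9_6_4_2 0x10010410c30c41410820c30c40c31041040c5186184004186187103 (by decide +kernel)

theorem F_13_11_9_7_4_2 : Full [13, 12, 11, 10, 8, 7, 6, 5, 4, 4, 3, 2, 1] :=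
  full_crit [[1]] (List.forall_mem_cons.2 ⟨full_one, (by simp)⟩) 13 [11, 10, 9, 7, 6, 5, 4, 3, 3, 2, 1] F_11_9_7_4_2 0x411810410840c41450830c31030c4104103145146103186187103 (by decide +kernel)

theorem F_13_11_9_7_5_2 : Full [13, 12, 11, 10, 9, 7, 6, 5, 5, 4, 3, 2, 1] :=
  full_crit [] (by simp) 13 [11, 10, 9, 8, 6, 5, 4, 4, 3, 2, 1] F_11_9_7_5_2 0x10010410c3042082103146141084145144044145146103186187103 (by decide +kernel)

theorem F_13_11_9_7_5_3 : Full [13, 12, 11, 10, 9, 8, 6, 6, 5, 4, 3, 2, 1] :=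
  full_crit [[1]] (List.forall_mem_cons.2 ⟨full_one, (by simp)⟩) 13 [11, 10, 9, 8, 7, 5, 5, 4, 3, 2, 1] F_11_9_7_5_3 0x411810410840c20820c40c61c5104105103145146103186187103 (by decide +kernel)

theorem F_14_11_9_7_5_3 : Full [14, 12, 11, 10, 9, 8, 6, 6, 5, 4, 3, 2, 1, 1] :=
  full_crit [] (by simp) 14 [11, 10, 9, 8, 7, 5, 5, 4, 3, 2, 1] F_11_9_7_5_3 0x10020860410421030820831031871441041440c51451840c71c7204004 (by decide +kernel)

theorem F_14_12_9_7_5_3 : Full [14, 13, 11, 10, 9, 8, 6, 6, 5, 4, 3, 2, 2, 1] :=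
  full_crit [[1]] (List.forall_mem_cons.2 ⟨full_one, (by simp)⟩) 14 [12, 10, 9, 8, 7, 5, 5, 4, 3, 2, 1, 1] F_12_9_7_5_3 0x10460831410810830c40c61c51041051031451461031871c7103 (by decide +kernel)

theorem F_14_12_10_7_5_3 : Full [14, 13, 12, 10, 9, 8, 6, 6, 5, 4, 3, 3, 2, 1] :=
  full_crit [] (by simp) 14 [12, 11, 9, 8, 7, 5, 5, 4, 3, 2, 2, 1] F_12_10_7_5_3 0x400410430c31050820831031871441041440c61861c40041871c7103 (by decide +kernel)

theorem F_14_12_10_8_5_3 : Full [14, 13, 12, 11, 9, 8, 6, 6, 5, 4, 4, 3, 2, 1] :=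
  full_crit [[1]] (List.forall_mem_cons.2 ⟨full_one, (by simp)⟩) 14 [12, 11, 10, 8, 7, 5, 5, 4, 3, 3, 2, 1] F_12_10_8_5_3 0x10460410421031051410861c51041051031461861031871c7103 (by decide +kernel)

theorem F_14_12_10_8_6_3 : Full [14, 13, 12, 11, 10, 8, 6, 6, 5, 5, 4, 3, 2, 1] :=
  full_crit [] (by simp) 14 [12, 11, 10, 9, 7, 5, 5, 4, 4, 3, 2, 1] F_12_10_8_6_3 0x400410430c10420c40c51851871451451840041461861031871c7103 (by decide +kernel)

theorem F_15_12_10_8_6_3 : Full [15, 13, 12, 11, 10, 8, 6, 6, 5, 5, 4, 3, 2, 1, 1] :=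
  full_crit [] (by simp) 15 [12, 11, 10, 9, 7, 5, 5, 4, 4, 3, 2, 1] F_12_10_8_6_3 0x10020860420410831031461461c51451461001031871c40c7208204004 (by decide +kernel)

theorem F_15_13_10_8_6_3 : Full [15, 14, 12, 11, 10, 8, 6, 6, 5, 5, 4, 3, 2, 2, 1] :=
  full_crit [[1]] (List.forall_mem_cons.2 ⟨full_one, (by simp)⟩) 15 [13, 11, 10, 9, 7, 5, 5, 4, 4, 3, 2, 1, 1] F_13_10_8_6_3 0x10460831410420c40c51851871451451840041461861031c71c8103 (by decide +kernel)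

/-- The small shapes. -/
def smallK : List (List ℕ) :=
  [[1], [2, 1], [3, 1, 1], [3, 2, 1], [4, 1, 1, 1], [4, 2, 1, 1], [4, 3, 2, 1], [4, 3, 3, 1], [5, 3, 2, 1, 1], [4, 4, 3, 2], [5, 4, 2, 2, 1], [5, 4, 3, 2, 1], [6, 4, 2, 2, 1, 1], [6, 4, 3, 2, 1, 1], [6, 5, 2, 2, 2, 1], [6, 5, 3, 2, 2, 1], [7, 5, 2, 2, 2, 1, 1], [6, 5, 4, 3, 2, 1], [6, 5, 4, 4, 2, 1], [7, 5, 4, 3, 2, 1, 1], [7, 5, 4, 4, 2, 1, 1], [7, 6, 4, 3, 2, 2, 1], [7, 6, 4, 4, 2, 2, 1], [7, 6, 5, 3, 3, 2, 1], [7, 6, 5, 4, 3, 2, 1], [8, 6, 5, 3, 3, 2, 1, 1], [8, 6, 5, 4, 3, 2, 1, 1], [8, 7, 5, 3, 3, 2, 2, 1], [8, 7, 5, 4, 3, 2, 2, 1], [9, 7, 5, 3, 3, 2, 2, 1, 1], [8, 7, 6, 4, 3, 3, 2, 1], [9, 7, 6, 3, 3, 3, 2, 1, 1], [8, 7, 6, 5, 4, 3, 2, 1], [8, 7, 6, 5, 5, 3, 2, 1], [9, 7, 6, 5, 4, 3, 2, 1, 1], [9, 7, 6, 5, 5, 3, 2, 1, 1], [9, 8, 6, 5, 4, 3, 2, 2, 1], [9, 8, 6, 5, 5, 3, 2, 2, 1], [9, 8, 7, 5, 4, 3, 3, 2, 1], [9, 8, 7, 5, 5, 3, 3,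 2, 1], [9, 8, 7, 6, 4, 4, 3, 2, 1], [9, 8, 7, 6, 5, 4, 3, 2, 1], [10, 8, 7, 6, 4, 4, 3, 2, 1, 1], [10, 8, 7, 6, 5, 4, 3, 2, 1, 1], [10, 9, 7, 6, 4, 4, 3, 2, 2, 1], [10, 9, 7, 6, 5, 4, 3, 2, 2, 1], [10, 9, 8, 6, 4, 4, 3, 3, 2, 1], [10, 9, 8, 6, 5, 4, 3, 3, 2, 1], [11, 9, 8, 6, 4, 4, 3, 3, 2, 1, 1], [10, 9, 8, 7, 5, 4, 4, 3, 2, 1], [11, 10, 8, 6, 4, 4, 3, 3, 2, 2, 1], [10, 9, 8, 7, 6, 5, 4, 3, 2, 1], [10, 9, 8, 7, 6, 6, 4, 3, 2, 1], [11, 9, 8, 7, 6, 5, 4, 3, 2, 1, 1], [11, 9, 8, 7, 6, 6, 4, 3, 2, 1, 1], [11, 10, 8, 7, 6, 5, 4, 3, 2, 2, 1], [11, 10, 8, 7, 6, 6, 4, 3, 2, 2, 1], [11, 10, 9, 7, 6, 5, 4, 3, 3, 2, 1], [11, 10, 9, 7, 6, 6, 4, 3, 3, 2, 1], [11, 10, 9, 8, 6, 5, 4, 4, 3, 2, 1], [11, 10, 9, 8, 6, 6, 4, 4, 3, 2, 1], [11, 10, 9, 8, 7, 5, 5, 4, 3, 2, 1], [11, 10, 9, 8, 7, 6, 5, 4, 3, 2, 1], [12, 10, 9, 8, 7, 5, 5, 4, 3, 2, 1, 1], [12, 10, 9, 8, 7, 6, 5, 4, 3, 2, 1, 1], [12, 11, 9, 8, 7, 5,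 5, 4, 3, 2, 2, 1], [12, 11, 9, 8, 7, 6, 5, 4, 3, 2, 2, 1], [12, 11, 10, 8, 7, 5, 5, 4, 3, 3, 2, 1], [12, 11, 10, 8, 7, 6, 5, 4, 3, 3, 2, 1], [12, 11, 10, 9, 7, 5, 5, 4, 4, 3, 2, 1], [12, 11, 10, 9, 7, 6, 5, 4, 4, 3, 2, 1], [13, 11, 10, 9, 7, 5, 5, 4, 4, 3, 2, 1, 1], [12, 11, 10, 9, 8, 6, 5, 5, 4, 3, 2, 1], [13, 12, 10, 9, 7, 5, 5, 4, 4, 3, 2, 2, 1], [12, 11, 10, 9, 8, 7, 6, 5, 4, 3, 2, 1], [13, 11, 10, 9, 8, 7, 6, 5, 4, 3, 2, 1, 1], [13, 12, 10, 9, 8, 7, 6, 5, 4, 3, 2, 2, 1], [13, 12, 11, 9, 8, 7, 6, 5, 4, 3, 3, 2, 1], [13, 12, 11, 10, 8, 7, 6, 5, 4, 4, 3, 2, 1], [13, 12, 11, 10, 9, 7, 6, 5, 5, 4, 3, 2, 1], [13, 12, 11, 10, 9, 8, 6, 6, 5, 4, 3, 2, 1], [14, 12, 11, 10, 9, 8, 6, 6, 5, 4, 3, 2, 1, 1], [14, 13, 11, 10, 9, 8, 6, 6, 5, 4, 3, 2, 2, 1], [14, 13, 12, 10, 9, 8, 6, 6, 5, 4, 3, 3, 2, 1], [14, 13, 12, 11, 9, 8, 6, 6, 5, 4, 4, 3, 2, 1], [14, 13, 12, 11, 10, 8, 6, 6, 5, 5, 4, 3, 2, 1], [15,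 13, 12, 11, 10, 8, 6, 6, 5, 5, 4, 3, 2, 1, 1], [15, 14, 12, 11, 10, 8, 6, 6, 5, 5, 4, 3, 2, 2, 1]]

theorem smallK_full : ∀ ν ∈ smallK, Full ν :=
  (List.forall_mem_cons.2 ⟨full_one, (List.forall_mem_cons.2 ⟨F_2, (List.forall_mem_cons.2 ⟨F_3, (List.forall_mem_cons.2 ⟨F_3_1, (List.forall_mem_cons.2 ⟨F_4, (List.forall_mem_cons.2 ⟨F_4_1, (List.forall_mem_cons.2 ⟨F_4_2, (List.forall_mem_cons.2 ⟨F_4_2_1, (List.forall_mem_cons.2 ⟨F_5_2, (List.forall_mem_cons.2 ⟨F_4_3_1, (List.forall_mem_cons.2 ⟨F_5_3, (List.forall_mem_cons.2 ⟨F_5_3_1, (List.forall_mem_cons.2 ⟨F_6_3, (List.forall_mem_cons.2 ⟨F_6_3_1, (List.forall_mem_cons.2 ⟨F_6_4, (List.forall_mem_cons.2 ⟨F_6_4_1, (List.forall_mem_cons.2 ⟨F_7_4, (List.forall_mem_cons.2 ⟨F_6_4_2, (List.forall_mem_cons.2 ⟨F_6_4_2_1, (List.forall_mem_cons.2 ⟨F_7_4_2, (List.forall_mem_cons.2 ⟨F_7_4_2_1, (List.forall_mem_cons.2 ⟨F_7_5_2, (List.forall_mem_cons.2 ⟨F_7_5_2_1,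 (List.forall_mem_cons.2 ⟨F_7_5_3, (List.forall_mem_cons.2 ⟨F_7_5_3_1, (List.forall_mem_cons.2 ⟨F_8_5_3, (List.forall_mem_cons.2 ⟨F_8_5_3_1, (List.forall_mem_cons.2 ⟨F_8_6_3, (List.forall_mem_cons.2 ⟨F_8_6_3_1, (List.forall_mem_cons.2 ⟨F_9_6_3, (List.forall_mem_cons.2 ⟨F_8_6_4_1, (List.forall_mem_cons.2 ⟨F_9_6_4, (List.forall_mem_cons.2 ⟨F_8_6_4_2, (List.forall_mem_cons.2 ⟨F_8_6_4_2_1, (List.forall_mem_cons.2 ⟨F_9_6_4_2, (List.forall_mem_cons.2 ⟨F_9_6_4_2_1, (List.forall_mem_cons.2 ⟨F_9_7_4_2, (List.forall_mem_cons.2 ⟨F_9_7_4_2_1, (List.forall_mem_cons.2 ⟨F_9_7_5_2, (List.forall_mem_cons.2 ⟨F_9_7_5_2_1, (List.forall_mem_cons.2 ⟨F_9_7_5_3, (List.forall_mem_cons.2 ⟨F_9_7_5_3_1, (List.forall_mem_cons.2 ⟨F_10_7_5_3, (List.forall_mem_cons.2 ⟨F_10_7_5_3_1, (List.forall_mem_cons.2 ⟨F_10_8_5_3, (List.forall_mem_cons.2 ⟨F_10_8_5_3_1, (List.forall_mem_cons.2 ⟨F_10_8_6_3, (List.forall_mem_cons.2 ⟨F_10_8_6_3_1,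 (List.forall_mem_cons.2 ⟨F_11_8_6_3, (List.forall_mem_cons.2 ⟨F_10_8_6_4_1, (List.forall_mem_cons.2 ⟨F_11_9_6_3, (List.forall_mem_cons.2 ⟨F_10_8_6_4_2, (List.forall_mem_cons.2 ⟨F_10_8_6_4_2_1, (List.forall_mem_cons.2 ⟨F_11_8_6_4_2, (List.forall_mem_cons.2 ⟨F_11_8_6_4_2_1, (List.forall_mem_cons.2 ⟨F_11_9_6_4_2, (List.forall_mem_cons.2 ⟨F_11_9_6_4_2_1, (List.forall_mem_cons.2 ⟨F_11_9_7_4_2, (List.forall_mem_cons.2 ⟨F_11_9_7_4_2_1, (List.forall_mem_cons.2 ⟨F_11_9_7_5_2, (List.forall_mem_cons.2 ⟨F_11_9_7_5_2_1, (List.forall_mem_cons.2 ⟨F_11_9_7_5_3, (List.forall_mem_cons.2 ⟨F_11_9_7_5_3_1, (List.forall_mem_cons.2 ⟨F_12_9_7_5_3, (List.forall_mem_cons.2 ⟨F_12_9_7_5_3_1, (List.forall_mem_cons.2 ⟨F_12_10_7_5_3, (List.forall_mem_cons.2 ⟨F_12_10_7_5_3_1, (List.forall_mem_cons.2 ⟨F_12_10_8_5_3, (List.forall_mem_cons.2 ⟨F_12_10_8_5_3_1, (List.forall_mem_cons.2 ⟨F_12_10_8_6_3, (List.forall_mem_cons.2 ⟨F_12_10_8_6_3_1,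 (List.forall_mem_cons.2 ⟨F_13_10_8_6_3, (List.forall_mem_cons.2 ⟨F_12_10_8_6_4_1, (List.forall_mem_cons.2 ⟨F_13_11_8_6_3, (List.forall_mem_cons.2 ⟨F_12_10_8_6_4_2, (List.forall_mem_cons.2 ⟨F_13_10_8_6_4_2, (List.forall_mem_cons.2 ⟨F_13_11_8_6_4_2, (List.forall_mem_cons.2 ⟨F_13_11_9_6_4_2, (List.forall_mem_cons.2 ⟨F_13_11_9_7_4_2, (List.forall_mem_cons.2 ⟨F_13_11_9_7_5_2, (List.forall_mem_cons.2 ⟨F_13_11_9_7_5_3, (List.forall_mem_cons.2 ⟨F_14_11_9_7_5_3, (List.forall_mem_cons.2 ⟨F_14_12_9_7_5_3, (List.forall_mem_cons.2 ⟨F_14_12_10_7_5_3, (List.forall_mem_cons.2 ⟨F_14_12_10_8_5_3, (List.forall_mem_cons.2 ⟨F_14_12_10_8_6_3, (List.forall_mem_cons.2 ⟨F_15_12_10_8_6_3, (List.forall_mem_cons.2 ⟨F_15_13_10_8_6_3, (by simp)⟩)⟩)⟩)⟩)⟩)⟩)⟩)⟩)⟩)⟩)⟩)⟩)⟩)⟩)⟩)⟩)⟩)⟩)⟩)⟩)⟩)⟩)⟩)⟩)⟩)⟩)⟩)⟩)⟩)⟩)⟩)⟩)⟩)⟩)⟩)⟩)⟩)⟩)⟩)⟩)⟩)⟩)⟩)⟩)⟩)⟩)⟩)⟩)⟩)⟩)⟩)⟩)⟩)⟩)⟩)⟩)⟩)⟩)⟩)⟩)⟩)⟩)⟩)⟩)⟩)⟩)⟩)⟩)⟩)⟩)⟩)⟩)⟩)⟩)⟩)⟩)⟩)⟩)⟩)⟩)⟩)⟩)⟩)⟩)⟩)⟩)⟩)⟩)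

end Crest.Agent.R195
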